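import Mathlib

/-!
P225, assembly: limits of sequences of functions with bounded derivatives.
-/

noncomputable section

namespace Vale.Agent.P225.Lim

open Filter Topology Set MeasureTheory

variable {u u' : ℕ → ℝ → ℂ} {a b L : ℝ}

theorem sub_norm_le
    (hd : ∀ᶠ m in atTop, ∀ t ∈ Icc a b, HasDerivAt (u m) (u' m t) t ∧ ‖u' m t‖ ≤ L) :
    ∀ᶠ m in atTop, ∀ s ∈ Icc a b, ∀ t ∈ Icc a b, ‖u m t - u m s‖ ≤ L * ‖t - s‖ := by
  filter_upwards [hd] with m hm s hs t ht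
  exact (convex_Icc a b).norm_image_sub_le_of_norm_hasDerivWithin_le
    (fun x hx => (hm x hx).1.hasDerivWithinAt) (fun x hx => (hm x hx).2) hs ht

/-- Convergence at the rational times gives convergence everywhere. -/
theorem exists_tendsto (hab : a < b)
    (hd : ∀ᶠ m in atTop, ∀ t ∈ Icc a b, HasDerivAt (u m) (u' m t) t ∧ ‖u' m t‖ ≤ L)
    (hq : ∀ q : ℚ, (q : ℝ) ∈ Icc a b → ∃ l, Tendsto (fun m => u m q) atTop (𝓝 l))
    {t : ℝ} (ht : t ∈ Icc a b) : ∃ l, Tendsto (fun m => u m t) atTop (𝓝 l) := by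
  refine cauchySeq_tendsto_of_complete (Metric.cauchySeq_iff.2 fun ε hε => ?_)
  obtain ⟨δ, hδ⟩ : ∃ δ, δ = ε / (4 * (|L| + 1)) := ⟨_, rfl⟩
  have hδ0 : 0 < δ := hδ ▸ by positivity
  obtain ⟨q, hq1, hq2⟩ := exists_rat_btwn (show max a (t - δ) < min b (t + δ) from
    max_lt (lt_min hab (by linarith [ht.1])) (lt_min (by linarith [ht.2]) (by linarith)))
  obtain ⟨⟨qa, qt⟩, qb, qt'⟩ : (a < (q : ℝ) ∧ t - δ < q) ∧ (q : ℝ) < b ∧ (q : ℝ) < t + δ :=
    ⟨max_lt_iff.1 hq1, lt_min_iff.1 hq2⟩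
  obtain ⟨l, hl⟩ := hq q ⟨qa.le, qb.le⟩
  obtain ⟨N₁, hN₁⟩ := Metric.cauchySeq_iff.1 hl.cauchySeq (ε / 4) (by linarith)
  obtain ⟨N₂, hN₂⟩ := eventually_atTop.1 (sub_norm_le hd)
  refine ⟨max N₁ N₂, fun m hm n hn => ?_⟩
  have hclose : ∀ k ≥ max N₁ N₂, dist (u k t) (u k (q : ℝ)) ≤ ε / 4 := fun k hk => by
    rw [dist_eq_norm]
    refine (hN₂ k (le_of_max_le_right hk) q ⟨qa.le, qb.le⟩ t ht).trans ?_
    have h1 : ‖t - (q : ℝ)‖ ≤ δ := by
      rw [Real.norm_eq_abs, abs_le]; constructor <;> linarith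
    refine (mul_le_mul_of_nonneg_right (le_abs_self L) (norm_nonneg _)).trans
      ((mul_le_mul_of_nonneg_left h1 (abs_nonneg L)).trans ?_)
    rw [hδ, ← mul_div_assoc, div_le_iff₀ (by positivity)]
    nlinarith [abs_nonneg L]
  have h3 := hN₁ m (le_of_max_le_left hm) n (le_of_max_le_left hn)
  calc dist (u m t) (u n t) ≤ dist (u m t) (u m q) + dist (u m q) (u n q) + dist (u n q) (u n t) :=
        dist_triangle4 _ _ _ _
    _ < ε / 4 + ε / 4 + ε / 4 + ε / 4 := by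
        have h4 := hclose n hn
        rw [dist_comm] at h4
        linarith [hclose m hm]
    _ = ε := by ring

/-- The limit is continuous. -/
theorem continuousOn_limit
    (hd : ∀ᶠ m in atTop, ∀ t ∈ Icc a b, HasDerivAt (u m) (u' m t) t ∧ ‖u' m t‖ ≤ L)
    {f : ℝ → ℂ} (hf : ∀ t ∈ Icc a b, Tendsto (fun m => u m t) atTop (𝓝 (f t))) :
    ContinuousOn f (Icc a b) :=
  (LipschitzOnWith.of_dist_le' (K := L) fun s hs t ht => by
    rw [dist_eq_norm, dist_eq_norm]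
    exact le_of_tendsto ((hf s hs).sub (hf t ht)).norm
      ((sub_norm_le hd).mono fun m hm => hm t ht s hs)).continuousOn

/-- The derivative of the limit is the limit of the derivatives. -/
theorem hasDerivAt_limit
    (hd : ∀ᶠ m in atTop, ∀ t ∈ Icc a b, HasDerivAt (u m) (u' m t) t ∧ ‖u' m t‖ ≤ L)
    (hc : ∀ᶠ m in atTop, ContinuousOn (u' m) (Icc a b)) {f h : ℝ → ℂ}
    (hf : ∀ t ∈ Icc a b, Tendsto (fun m => u m t) atTop (𝓝 (f t)))
    (hh : ∀ t ∈ Icc a b, Tendsto (fun m => u' m t) atTop (𝓝 (h t)))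
    (hhc : ContinuousOn h (Icc a b)) {t : ℝ} (ht : t ∈ Ioo a b) : HasDerivAt f (h t) t := by
  have hab : a ≤ b := by linarith [ht.1, ht.2]
  have key : ∀ s ∈ Icc a b, f s = f a + ∫ w in a..s, h w := by
    intro s hs
    have hsub : Set.uIcc a s ⊆ Icc a b := by
      rw [Set.uIcc_of_le hs.1]; exact Icc_subset_Icc_right hs.2
    have hsub' : Set.uIoc a s ⊆ Icc a b := Set.uIoc_subset_uIcc.trans hsub
    have h1 : Tendsto (fun m => ∫ w in a..s, u' m w) atTop (𝓝 (∫ w in a..s, h w)) := by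
      refine intervalIntegral.tendsto_integral_filter_of_dominated_convergence (fun _ => L) ?_ ?_
        intervalIntegrable_const ?_
      · filter_upwards [hc] with m hm
        exact (hm.mono hsub').aestronglyMeasurable measurableSet_uIoc
      · filter_upwards [hd] with m hm
        exact Filter.Eventually.of_forall fun w hw => (hm w (hsub' hw)).2
      · exact Filter.Eventually.of_forall fun w hw => hh w (hsub' hw)
    have h2 : Tendsto (fun m => u m s - u m a) atTop (𝓝 (∫ w in a..s, h w)) := by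
      refine h1.congr' ?_
      filter_upwards [hd, hc] with m hm hm'
      exact intervalIntegral.integral_eq_sub_of_hasDerivAt (fun w hw => (hm w (hsub hw)).1)
        ((hm'.mono hsub).intervalIntegrable)
    rw [← tendsto_nhds_unique ((hf s hs).sub (hf a (left_mem_Icc.2 hab))) h2]
    ring
  have he : f =ᶠ[𝓝 t] fun s => f a + ∫ w in a..s, h w := by
    filter_upwards [Ioo_mem_nhds ht.1 ht.2] with s hs using key s (Ioo_subset_Icc_self hs)
  refine HasDerivAt.congr_of_eventuallyEq ?_ he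
  refine (intervalIntegral.integral_hasDerivAt_right ?_ ?_ ?_).const_add _
  · refine (hhc.mono ?_).intervalIntegrable
    rw [Set.uIcc_of_le ht.1.le]
    exact Icc_subset_Icc_right ht.2.le
  · exact ContinuousOn.stronglyMeasurableAtFilter isOpen_Ioo (hhc.mono Ioo_subset_Icc_self) t ht
  · exact hhc.continuousAt (Icc_mem_nhds ht.1 ht.2)

/-- Convergence at the rational times gives a solution of the limit equation. -/
theorem exists_limit {u u' u'' : ℕ → ℝ → ℂ} {a b L : ℝ} (hab : a < b)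
    (hd : ∀ᶠ m in atTop, ∀ t ∈ Icc a b,
      HasDerivAt (u m) (u' m t) t ∧ HasDerivAt (u' m) (u'' m t) t ∧ ‖u' m t‖ ≤ L ∧ ‖u'' m t‖ ≤ L)
    (hq : ∀ q : ℚ, (q : ℝ) ∈ Icc a b → (∃ l, Tendsto (fun m => u m q) atTop (𝓝 l)) ∧
      ∃ l, Tendsto (fun m => u' m q) atTop (𝓝 l))
    {f f' : ℝ → ℂ}
    (hf : ∀ t ∈ Icc a b, (∃ l, Tendsto (fun m => u m t) atTop (𝓝 l)) →
      Tendsto (fun m => u m t) atTop (𝓝 (f t)))
    (hf' : ∀ t ∈ Icc a b, (∃ l, Tendsto (fun m => u' m t) atTop (𝓝 l)) →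
      Tendsto (fun m => u' m t) atTop (𝓝 (f' t))) :
    (∀ t ∈ Icc a b, Tendsto (fun m => u m t) atTop (𝓝 (f t)) ∧
      Tendsto (fun m => u' m t) atTop (𝓝 (f' t))) ∧
    ContinuousOn f (Icc a b) ∧ ContinuousOn f' (Icc a b) ∧
    ∀ t ∈ Ioo a b, HasDerivAt f (f' t) t := by
  have h1 : ∀ᶠ m in atTop, ∀ t ∈ Icc a b, HasDerivAt (u m) (u' m t) t ∧ ‖u' m t‖ ≤ L :=
    hd.mono fun m hm t ht => ⟨(hm t ht).1, (hm t ht).2.2.1⟩
  have h2 : ∀ᶠ m in atTop, ∀ t ∈ Icc a b, HasDerivAt (u' m) (u'' m t) t ∧ ‖u'' m t‖ ≤ L :=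
    hd.mono fun m hm t ht => ⟨(hm t ht).2.1, (hm t ht).2.2.2⟩
  have hl : ∀ t ∈ Icc a b, Tendsto (fun m => u m t) atTop (𝓝 (f t)) := fun t ht =>
    hf t ht (exists_tendsto hab h1 (fun q hq' => (hq q hq').1) ht)
  have hl' : ∀ t ∈ Icc a b, Tendsto (fun m => u' m t) atTop (𝓝 (f' t)) := fun t ht =>
    hf' t ht (exists_tendsto hab h2 (fun q hq' => (hq q hq').2) ht)
  have hc' := continuousOn_limit h2 hl'
  exact ⟨fun t ht => ⟨hl t ht, hl' t ht⟩, continuousOn_limit h1 hl, hc', fun t ht =>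
    hasDerivAt_limit h1 (h2.mono fun m hm => fun s hs => (hm s hs).1.continuousAt.continuousWithinAt)
      hl hl' hc' ht⟩

end Vale.Agent.P225.Lim
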