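import Vale.Agent.P225.Assembly.Limit.Entries

/-!
P225, assembly: three switch intervals are negligible against the time.
-/

noncomputable section

namespace Vale.Agent.P225.Lim

open Finset

variable {d : PathData} {r₂ β φ₀ : ℝ}

theorem cluster_step (hd : d.Good r₂ β φ₀) (i : ℕ) :
    clusterStart d i + 1 ≤ clusterStart d (i + 1) := by
  have := Sched.stage_le_clusterStart_succ hd.j₀_pos i 0
  rwa [Trunc.stageStart_zero] at this

theorem nat_le_cluster (hd : d.Good r₂ β φ₀) (n : ℕ) : (n : ℝ) ≤ clusterStart d n := by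
  induction n with
  | zero => rw [Nat.cast_zero]; exact le_trans (by positivity) (Trunc.clusterStart_ge hd 0)
  | succ n ih =>
    have := cluster_step hd n
    push_cast
    linarith

theorem cluster_incr (hd : d.Good r₂ β φ₀) :
    ∃ P : ℝ, 0 ≤ P ∧ ∀ i, clusterStart d (i + 1) - clusterStart d i ≤
      P * ((d.j₀ + i : ℕ) : ℝ) ^ 5 := by
  refine ⟨(∑ k ∈ range d.period, planDur (d.plan k)) + 1,
    add_nonneg (sum_nonneg fun k _ => Sched.planDur_nonneg _) zero_le_one, fun i => ?_⟩
  have h : ∀ m r, d.plan (r + m * d.period) = d.plan r := by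
    intro m r
    induction m with
    | zero => simp
    | succ m ih => rw [Nat.succ_mul, ← Nat.add_assoc, hd.isPlan.periodic, ih]
  have hj : d.plan (d.j₀ + i) = d.plan ((d.j₀ + i) % d.period) := by
    conv_lhs => rw [← Nat.mod_add_div' (d.j₀ + i) d.period]
    exact h _ _
  have hle : planDur (d.plan (d.j₀ + i)) ≤ ∑ k ∈ range d.period, planDur (d.plan k) := by
    rw [hj]
    exact single_le_sum (f := fun k => planDur (d.plan k)) (fun k _ => Sched.planDur_nonneg _)
      (mem_range.2 (Nat.mod_lt _ hd.isPlan.period_pos))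
  have h1 : (1 : ℝ) ≤ ((d.j₀ + i : ℕ) : ℝ) := by exact_mod_cast Trunc.one_le_idx hd i
  show clusterStart d i + planDur (d.plan (d.j₀ + i)) / speed (d.j₀ + i) +
    ((d.j₀ + i : ℕ) : ℝ) ^ 5 - clusterStart d i ≤ _
  rw [speed, div_inv_eq_mul]
  have h2 : planDur (d.plan (d.j₀ + i)) * ((d.j₀ + i : ℕ) : ℝ) ^ 4 ≤
      (∑ k ∈ range d.period, planDur (d.plan k)) * ((d.j₀ + i : ℕ) : ℝ) ^ 5 :=
    mul_le_mul hle (pow_le_pow_right₀ h1 (by norm_num)) (by positivity)
      (sum_nonneg fun k _ => Sched.planDur_nonneg _)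
  linarith

theorem exists_exp_bound (hd : d.Good r₂ β φ₀) {δ : ℝ} (hδ : 0 < δ) :
    ∃ B : ℝ, ∀ i t, clusterStart d i ≤ t →
      (20 - δ / 2) * (clusterStart d (i + 3) - clusterStart d 0) ≤ 20 * t + B := by
  obtain ⟨P, hP0, hP⟩ := cluster_incr hd
  obtain ⟨-, C, hC, hb⟩ := clusterStart_bounds hd
  set a := 20 * (729 * P) with ha
  set c := δ / 2 * C⁻¹ with hc
  have ha0 : 0 ≤ a := by positivity
  have hc0 : 0 < c := by positivity
  refine ⟨a * (a / c) ^ 5, fun i t ht => ?_⟩
  have hB : 0 ≤ a * (a / c) ^ 5 := by positivity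
  have hmono := (clusterStart_bounds hd).1.monotone
  have h0 : 0 ≤ clusterStart d 0 := le_trans (by positivity) (Trunc.clusterStart_ge hd 0)
  have ht0 : clusterStart d 0 ≤ t := (hmono (Nat.zero_le i)).trans ht
  rcases le_or_gt (20 - δ / 2) 0 with hk | hk
  · have := mul_nonpos_of_nonpos_of_nonneg hk (sub_nonneg.2 (hmono (Nat.zero_le (i + 3))))
    linarith
  set x : ℝ := ((d.j₀ + i : ℕ) : ℝ) with hx
  have hx1 : 1 ≤ x := by rw [hx]; exact_mod_cast Trunc.one_le_idx hd i
  have hs : ∀ k ≤ 2, clusterStart d (i + k + 1) - clusterStart d (i + k) ≤ 243 * P * x ^ 5 := by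
    intro k hk
    refine (hP (i + k)).trans ?_
    rw [show (243 : ℝ) * P * x ^ 5 = P * (3 * x) ^ 5 by ring]
    refine mul_le_mul_of_nonneg_left (pow_le_pow_left₀ (Nat.cast_nonneg _) ?_ 5) hP0
    have : (k : ℝ) ≤ 2 := by exact_mod_cast hk
    push_cast [hx] at hx1 ⊢
    linarith
  have hinc : clusterStart d (i + 3) ≤ clusterStart d i + 729 * P * x ^ 5 := by
    have h1 := hs 0 (by norm_num)
    have h2 := hs 1 (by norm_num)
    have h3 := hs 2 le_rfl
    simp only [add_zero, add_assoc] at h1 h2 h3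
    norm_num at h1 h2 h3
    linarith
  have hpoly : a * x ^ 5 - c * x ^ 6 ≤ a * (a / c) ^ 5 := by
    rcases le_or_gt x (a / c) with h | h
    · have : 0 ≤ c * x ^ 6 := by positivity
      have := mul_le_mul_of_nonneg_left (pow_le_pow_left₀ (by linarith) h 5) ha0
      linarith
    · have h2 : a ≤ c * x := by rw [div_lt_iff₀ hc0] at h; linarith
      have := mul_le_mul_of_nonneg_right h2 (show 0 ≤ x ^ 5 by positivity)
      linarith
  have hlow : c * x ^ 6 ≤ δ / 2 * clusterStart d i := by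
    rw [hc, mul_assoc]; exact mul_le_mul_of_nonneg_left (hb i).1 (by positivity)
  have h5 : 0 ≤ 729 * P * x ^ 5 := by positivity
  calc (20 - δ / 2) * (clusterStart d (i + 3) - clusterStart d 0)
      ≤ (20 - δ / 2) * (clusterStart d i + 729 * P * x ^ 5) :=
        mul_le_mul_of_nonneg_left (by linarith) hk.le
    _ = (20 - δ / 2) * clusterStart d i + (20 - δ / 2) * (729 * P * x ^ 5) := by ring
    _ ≤ (20 - δ / 2) * clusterStart d i + 20 * (729 * P * x ^ 5) := by
        have := mul_le_mul_of_nonneg_right (show 20 - δ / 2 ≤ 20 by linarith) h5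
        linarith
    _ ≤ 20 * t + a * (a / c) ^ 5 := by
        rw [ha] at hpoly ⊢
        linarith

end Vale.Agent.P225.Lim
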