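import Vale.Agent.P225.System.Free

/-!
P225, assembly: the regular core rate solves the scalar equation on the whole core.
-/

noncomputable section

namespace Vale.Agent.P225.Lim

open Matrix SU2 Real

variable {d : PathData} {r₂ β φ₀ : ℝ}

theorem continuous_coreRate (hd : d.Good r₂ β φ₀) (l : Lbl) : Continuous (coreRate β l) := by
  refine continuous_iff_continuousAt.2 fun u => ?_
  have hS0 : 0 ≤ (l 2 : ℝ) * (l 2 + 2) / β * Real.exp (2 * u) := by
    have := hd.β_pos; positivity
  obtain ⟨D, hD, -⟩ := Free.hasDerivAt_corePhi (l 1) hS0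
  rw [funext (coreRate_eq β l)]
  exact continuousAt_const.add
    (hD.continuousAt.comp (f := fun v => (l 2 : ℝ) * (l 2 + 2) / β * Real.exp (2 * v))
      (continuous_const.mul (by fun_prop)).continuousAt)

theorem hasDerivAt_coreRate (hd : d.Good r₂ β φ₀) (l : Lbl) {u : ℝ} (hu : u ≤ Real.log r₂) :
    HasDerivAt (coreRate β l)
      (baseCoef d l u - coreRate β l u ^ 2 - pathDamp d u * coreRate β l u) u := by
  set a := l 1
  set S : ℝ → ℝ := fun u => (l 2 : ℝ) * (l 2 + 2) / β * Real.exp (2 * u) with hSdef
  have hlate := hd.pre_late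
  have hpar : ∀ v, v < Real.log r₂ → basePar d v = ![0, 4, 4 * Real.exp (2 * v) / β] :=
    fun v hv => (Free.basePar_early hd (by linarith)).trans (hd.pre_core v hv)
  have hA : baseCoef d l u = (a : ℝ) * (a + 2) + S u := by
    have hc : Continuous fun v => (a : ℝ) * (a + 2) + S v := by fun_prop
    refine le_on_closure_eq (baseCoef_contDiff hd l).continuous hc (fun v hv => ?_) hu
    simp [baseCoef, hpar v hv, Fin.sum_univ_three, cas, S, a]
    ring
  have hν : pathDamp d u = 2 := by
    refine le_on_closure_eq (Free.contDiff_pathDamp hd).continuous continuous_const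
      (fun v hv => ?_) hu
    have he : (fun w => Real.log (Free.e2 (basePar d w))) =ᶠ[nhds v]
        fun w => Real.log (16 / β) + 2 * w := by
      filter_upwards [Iio_mem_nhds hv] with w hw
      have := hd.β_pos
      rw [hpar w hw, show Free.e2 ![0, 4, 4 * Real.exp (2 * w) / β] = 16 / β * Real.exp (2 * w) by
        simp [Free.e2]; ring, Real.log_mul (by positivity) (by positivity), Real.log_exp]
    rw [Free.pathDamp_eq hd]
    simp only [he.deriv_eq]
    rw [(((hasDerivAt_id' v).const_mul (2 : ℝ)).const_add (Real.log (16 / β))).deriv]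
    norm_num
  have hS0 : 0 ≤ S u := by have := hd.β_pos; positivity
  obtain ⟨D, hD, hD2⟩ := Free.hasDerivAt_corePhi a hS0
  have hS : HasDerivAt S (2 * S u) u :=
    ((((hasDerivAt_id u).const_mul 2).exp).const_mul ((l 2 : ℝ) * (l 2 + 2) / β)).congr_deriv
      (by simp [S]; ring)
  have hcr : coreRate β l = fun v => (a : ℝ) + Free.corePhi a (S v) := funext (coreRate_eq β l)
  rw [hA, hν, hcr]
  refine ((hD.comp u hS).const_add (a : ℝ)).congr_deriv ?_
  linear_combination hD2

/-- The regular solution with value one at the end of the core. -/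
def coreExp (r₂ β : ℝ) (l : Lbl) (t : ℝ) : ℂ :=
  ((Real.exp (∫ u in Real.log r₂..t, coreRate β l u) : ℝ) : ℂ)

theorem hasDerivAt_coreExp (hd : d.Good r₂ β φ₀) (l : Lbl) (t : ℝ) :
    HasDerivAt (coreExp r₂ β l) ((coreRate β l t : ℂ) * coreExp r₂ β l t) t := by
  have hc := continuous_coreRate hd l
  refine ((intervalIntegral.integral_hasDerivAt_right (hc.intervalIntegrable _ _)
    hc.aestronglyMeasurable.stronglyMeasurableAtFilter hc.continuousAt).exp.ofReal_comp
    ).congr_deriv ?_
  simp [coreExp, mul_comm]

end Vale.Agent.P225.Lim
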