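import Vale.Agent.P225.Assembly.Limit.Entries
import Vale.Agent.P225.Assembly.Limit.Core

/-!
P225, assembly: the truncated columns as functions on all points: equations and bounds.
-/

noncomputable section

namespace Vale.Agent.P225.Lim

open Matrix SU2 Set
open scoped ComplexOrder Matrix.Norms.L2Operator

variable {d : PathData} {r₂ β φ₀ : ℝ}

open Classical in
/-- Value of the column `b` of `M` at a point, zero outside the truncation. -/
def ptVal {K : ℕ} (M : Matrix (PntK K) BPt ℂ) (b : BPt) (x : Pnt) : ℂ :=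
  if h : ∀ k, lab x k ≤ K then M (below x K h) b else 0

theorem ptVal_out {K : ℕ} (M : Matrix (PntK K) BPt ℂ) (b : BPt) (z : PntK K) :
    ptVal M b z.out = M z b := by
  rw [ptVal, dif_pos (show ∀ k, lab z.out k ≤ K from fun k => Nat.lt_succ_iff.1 (z.1.1 k).isLt)]
  rfl

variable (d r₂ β) in
/-- The column from `T`. -/
def colVal (p : Param) (K : ℕ) (T : ℝ) (v : Matrix (PntK K) BPt ℂ) (b : BPt) (x : Pnt) (t : ℝ) :
    ℂ :=
  ptVal (truncBack d r₂ β p K t T * v) b x

variable (d r₂ β) in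
/-- Its derivative. -/
def colDer (p : Param) (K : ℕ) (T : ℝ) (v : Matrix (PntK K) BPt ℂ) (b : BPt) (x : Pnt) (t : ℝ) :
    ℂ :=
  ptVal (truncW d r₂ β p K t * truncBack d r₂ β p K t T * v) b x

theorem hasDerivAt_mul_entry {m n : Type*} [Fintype m] [DecidableEq m] {F : ℝ → Op m} {F' : Op m}
    {t : ℝ} (h : HasDerivAt F F' t) (v : Matrix m n ℂ) (i : m) (j : n) :
    HasDerivAt (fun u => (F u * v) i j) ((F' * v) i j) t := by
  simp only [Matrix.mul_apply]
  exact HasDerivAt.fun_sum fun z _ => (hasDerivAt_entry h i z).mul_const _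

theorem col_deriv (hd : d.Good r₂ β φ₀) {p : Param} (hp : InBox d p) {K : ℕ} {T t : ℝ}
    (v : Matrix (PntK K) BPt ℂ) (b : BPt) {x : Pnt} (hx : ptSize x ≤ K)
    (ht : startTime r₂ < t) (htT : t < T) :
    HasDerivAt (colVal d r₂ β p K T v b x) (colDer d r₂ β p K T v b x t) t ∧
      HasDerivAt (colDer d r₂ β p K T v b x)
        (pathRow d p t (fun y => colVal d r₂ β p K T v b y t) x -
          (pathDamp d t : ℂ) * colDer d r₂ β p K T v b x t) t := by
  have hk : ∀ k, lab x k ≤ K := fun k => (lab_le x k).trans hx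
  obtain ⟨h1, h2⟩ := truncBack_deriv hd hp K ht htT
  have e1 : colVal d r₂ β p K T v b x =
      fun u => (truncBack d r₂ β p K u T * v) (below x K hk) b := by
    funext u; exact dif_pos hk
  have e2 : colDer d r₂ β p K T v b x =
      fun u => (truncW d r₂ β p K u * truncBack d r₂ β p K u T * v) (below x K hk) b := by
    funext u; exact dif_pos hk
  refine ⟨?_, ?_⟩
  · rw [e1, e2]
    exact hasDerivAt_mul_entry h1 v _ b
  · have hrow : pathRow d p t (fun y => colVal d r₂ β p K T v b y t) x =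
        (truncOp d p K t * (truncBack d r₂ β p K t T * v)) (below x K hk) b := by
      rw [pathRow_eq p t _ hx hk, Matrix.mul_apply]
      simp only [colVal, ptVal_out]
    rw [hrow, e2]
    refine (hasDerivAt_mul_entry h2 v _ b).congr_deriv ?_
    rw [Matrix.sub_mul, Matrix.smul_mul, Matrix.sub_apply, Matrix.smul_apply, Matrix.mul_assoc,
      Complex.real_smul]

/-- On the core the truncation is the free regular solution. -/
theorem col_core (hd : d.Good r₂ β φ₀) {p : Param} (hp : InBox d p) {K : ℕ} {T t : ℝ}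
    (v : Matrix (PntK K) BPt ℂ) (b : BPt) (x : Pnt) (hT : Real.log r₂ ≤ T)
    (ht : t ∈ Icc (startTime r₂) (Real.log r₂)) :
    colDer d r₂ β p K T v b x t = (coreRate β (lab x) t : ℂ) * colVal d r₂ β p K T v b x t ∧
      colVal d r₂ β p K T v b x t =
        coreExp r₂ β (lab x) t * colVal d r₂ β p K T v b x (Real.log r₂) := by
  have hL : Real.log r₂ ≤ clusterStart d 0 :=
    le_trans (by linarith [hd.pre_late]) (Trunc.clusterStart_ge hd 0)
  by_cases hk : ∀ k, lab x k ≤ K
  swap
  · simp [colDer, colVal, ptVal, hk]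
  simp only [colDer, colVal, ptVal, dif_pos hk]
  refine ⟨?_, ?_⟩
  · rw [truncW_pre hd hp K ht.1 (ht.2.trans hL), Matrix.mul_assoc, freeDiag, Matrix.diagonal_mul,
      below_out, freeRate_core hd (lab x) ht.1 ht.2]
  · have hint : (∫ u in Real.log r₂..t, coreRate β (lab x) u) =
        -∫ u in t..Real.log r₂, freeRate d r₂ β (lab x) u := by
      rw [intervalIntegral.integral_symm, neg_inj]
      refine intervalIntegral.integral_congr fun u hu => ?_
      rw [uIcc_of_le ht.2] at hu
      exact (freeRate_core hd (lab x) (ht.1.trans hu.1) hu.2).symm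
    rw [truncBack_trans hd hp K ht.1 ht.2 hT, truncBack_pre hd hp K ht.1 ht.2 hL,
      Matrix.mul_assoc, Matrix.diagonal_mul, below_out, coreExp, hint]

/-- Weighted bounds from decay up to `c`. -/
theorem col_bound (hd : d.Good r₂ β φ₀) {p : Param} (hp : InBox d p) {K : ℕ} {T c t : ℝ}
    (v : Matrix (PntK K) BPt ℂ) {m : ℕ} {D V : ℝ}
    (hD : ‖sizeWgt m * truncBack d r₂ β p K t c‖ ≤ D)
    (hD' : ‖sizeWgt m * (truncW d r₂ β p K t * truncBack d r₂ β p K t c)‖ ≤ D)
    (hV : ‖truncBack d r₂ β p K c T * v‖ ≤ V)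
    (ht : startTime r₂ ≤ t) (htc : t ≤ c) (hcT : c ≤ T) (b : BPt) (x : Pnt) :
    ((ptSize x : ℝ) + 1) ^ m * ‖colVal d r₂ β p K T v b x t‖ ≤ D * V ∧
      ((ptSize x : ℝ) + 1) ^ m * ‖colDer d r₂ β p K T v b x t‖ ≤ D * V := by
  have hD0 : 0 ≤ D := (norm_nonneg _).trans hD
  have hV0 : 0 ≤ V := (norm_nonneg _).trans hV
  by_cases hk : ∀ k, lab x k ≤ K
  swap
  · simp [colDer, colVal, ptVal, hk, mul_nonneg hD0 hV0]
  simp only [colDer, colVal, ptVal, dif_pos hk, truncBack_trans hd hp K ht htc hcT]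
  have key : ∀ A : Op (PntK K), ‖sizeWgt m * A‖ ≤ D →
      ((ptSize x : ℝ) + 1) ^ m * ‖(A * (truncBack d r₂ β p K c T * v)) (below x K hk) b‖ ≤
        D * V := by
    intro A hA
    have e : (sizeWgt m * A * (truncBack d r₂ β p K c T * v) : Matrix (PntK K) BPt ℂ) (below x K hk) b =
        ((((ptSize x : ℝ) + 1) ^ m : ℝ) : ℂ) *
          (A * (truncBack d r₂ β p K c T * v)) (below x K hk) b := by
      rw [Matrix.mul_assoc, sizeWgt, Matrix.diagonal_mul, below_out]
    calc ((ptSize x : ℝ) + 1) ^ m * ‖(A * (truncBack d r₂ β p K c T * v)) (below x K hk) b‖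
        = ‖(sizeWgt m * A * (truncBack d r₂ β p K c T * v) : Matrix (PntK K) BPt ℂ) (below x K hk) b‖ := by
          rw [e, norm_mul, Complex.norm_real, Real.norm_of_nonneg (by positivity)]
      _ ≤ ‖sizeWgt m * A * (truncBack d r₂ β p K c T * v)‖ := norm_apply_le _ _ _
      _ ≤ ‖sizeWgt m * A‖ * ‖truncBack d r₂ β p K c T * v‖ := Matrix.l2_opNorm_mul _ _
      _ ≤ D * V := mul_le_mul hA hV (norm_nonneg _) hD0
  refine ⟨?_, ?_⟩
  · rw [Matrix.mul_assoc]; exact key _ hD
  · rw [← Matrix.mul_assoc (truncW d r₂ β p K t), Matrix.mul_assoc _ _ v]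
    exact key _ hD'

end Vale.Agent.P225.Lim
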