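import Vale.Agent.P225.Assembly.Columns

/-!
P225, assembly: rows of the path operator: truncations, continuity in the time and in the
parameters, and bounds.
-/

noncomputable section

namespace Vale.Agent.P225.Lim

open Matrix SU2 Set Filter Topology
open scoped ComplexOrder Matrix.Norms.L2Operator

variable {d : PathData} {r₂ β φ₀ : ℝ}

/-- The copy of `x` below `K`. -/
def below (x : Pnt) (K : ℕ) (h : ∀ k, lab x k ≤ K) : PntK K :=
  ⟨⟨fun k => ⟨lab x k, Nat.lt_succ_of_le (h k)⟩, x.1.2⟩, x.2⟩

theorem below_out (x : Pnt) (K : ℕ) (h : ∀ k, lab x k ≤ K) : (below x K h).out = x := rfl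

theorem lab_le (x : Pnt) (k : Fin 3) : lab x k ≤ ptSize x :=
  Finset.single_le_sum (f := fun k => lab x k) (fun _ _ => Nat.zero_le _) (Finset.mem_univ k)

theorem lab_add_le (x : Pnt) (G : Fin 3) : lab x (G + 1) + lab x (G + 2) ≤ ptSize x := by
  rw [ptSize, fin3_sum G]
  omega

/-- A row may be summed over any large enough truncation. -/
theorem rowSum_eq_sum {K : ℕ} (G : Fin 3) (F : ∀ p, BlkMat p) (c : Pnt → ℂ) {x : Pnt}
    (hK : lab x (G + 1) + lab x (G + 2) ≤ K) :
    rowSum G F c x = ∑ z : PntK K, gaugeEntry G F x z.out * c z.out := by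
  let e : PntK (lab x (G + 1) + lab x (G + 2)) → PntK K := fun z =>
    below z.out K fun k => (Nat.lt_succ_iff.1 (z.1.1 k).isLt).trans hK
  have hinj : Function.Injective e := fun z z' h =>
    PntK.out_injective (show z.out = z'.out from congrArg PntK.out (a₁ := e z) (a₂ := e z') h)
  refine Fintype.sum_of_injective e hinj _ _ (fun w hw => ?_) fun z => rfl
  rw [gaugeEntry_of_not, zero_mul]
  intro h
  exact hw ⟨below w.out _ (blk_le h le_rfl), PntK.out_injective rfl⟩

/-- The row of the path operator. -/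
def pathRow (d : PathData) (p : Param) (t : ℝ) (c : Pnt → ℂ) (x : Pnt) : ℂ :=
  rowSum (pathGauge d t) (pathOp d p t) c x

theorem pathRow_eq {K : ℕ} (p : Param) (t : ℝ) (c : Pnt → ℂ) {x : Pnt} (hK : ptSize x ≤ K)
    (h : ∀ k, lab x k ≤ K) :
    pathRow d p t c x = ∑ z : PntK K, truncOp d p K t (below x K h) z * c z.out :=
  rowSum_eq_sum _ _ _ ((lab_add_le x _).trans hK)

theorem norm_apply_le {m n : Type*} [Fintype m] [Fintype n] [DecidableEq n] (M : Matrix m n ℂ)
    (i : m) (j : n) : ‖M i j‖ ≤ ‖M‖ := by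
  have h := (M.l2_opNorm_mulVec (EuclideanSpace.single j (1 : ℂ)))
  rw [PiLp.norm_single, norm_one, mul_one] at h
  refine le_trans ?_ h
  refine le_of_eq_of_le ?_ (PiLp.norm_apply_le _ i)
  simp

theorem continuous_linkMat {K : ℕ} (G : Fin 3) :
    Continuous fun Q : LinkMat => gaugeMat K G (linkOp Q) := by
  refine continuous_pi fun x => continuous_pi fun y => ?_
  show Continuous fun Q : LinkMat => gaugeEntry G (linkOp Q) x.out y.out
  unfold gaugeEntry
  split_ifs
  · refine continuous_finsetSum _ fun u _ => continuous_finsetSum _ fun v _ =>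
      ((continuous_const).mul ?_).mul continuous_const
    simp only [linkOp, Matrix.neg_apply, Matrix.sum_apply, Matrix.smul_apply, smul_eq_mul]
    exact (continuous_finsetSum _ fun a _ => continuous_finsetSum _ fun b _ =>
      (Complex.continuous_ofReal.comp (continuous_id.matrix_elem a b)).mul continuous_const).neg
  · exact continuous_const

/-- The link matrix at a fixed time is continuous in the parameters. -/
theorem tendsto_pathQ (hd : d.Good r₂ β φ₀) {p : ℕ → Param} {q : Param} (hq : InBox d q)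
    (h : ∀ i l k, Tendsto (fun m => p m i l k) atTop (𝓝 (q i l k))) (t : ℝ) :
    Tendsto (fun m => pathQ d (p m) t) atTop (𝓝 (pathQ d q t)) := by
  by_cases ht : ∃ il, InStage d t il
  · obtain ⟨⟨i, l⟩, hil⟩ := ht
    have hj := hd.j₀_pos
    simp only [Sched.pathQ_of_inStage hj hil]
    set σ := (d.plan (d.j₀ + i))[l]'hil.1
    set ε := speed (d.j₀ + i)
    set s := ε * (t - stageStart d i l)
    set P := d.scale t
    set B := adQ σ.gauge (linePar P (stageTheta σ s) σ.gauge)
    have hc : Continuous fun r : Fin σ.len → ℝ =>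
        B + (Real.sqrt 3 * P * ε) • ∑ k : Fin σ.len, (r k * bump (s - (k + 1))) • ctrlDir (σ.letter k) :=
      continuous_const.add ((continuous_finsetSum _ fun k _ =>
        ((continuous_apply k).mul continuous_const).smul continuous_const).const_smul
          (Real.sqrt 3 * P * ε))
    have hpos := hd.pathQ_pos q hq t
    rw [Sched.pathQ_of_inStage hj hil] at hpos
    have hne : (B + (Real.sqrt 3 * P * ε) • stageCtrl σ (q i l) s).det ≠ 0 := by
      intro h0
      refine hpos.det_pos.ne' ?_
      show (((B.det / (B + (Real.sqrt 3 * P * ε) • stageCtrl σ (q i l) s).det) ^ (1 / 6 : ℝ)) •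
        (B + (Real.sqrt 3 * P * ε) • stageCtrl σ (q i l) s)).det = 0
      rw [det_smul, h0, mul_zero]
    have hB : B.det ≠ 0 :=
      (Sched.stage_base_posDef σ (hd.scale_pos t) s).det_pos.ne'
    have hA : ContinuousAt (fun r : Fin σ.len → ℝ =>
        ((B.det / (B + (Real.sqrt 3 * P * ε) •
          ∑ k : Fin σ.len, (r k * bump (s - (k + 1))) • ctrlDir (σ.letter k)).det) ^ (1 / 6 : ℝ)) •
        (B + (Real.sqrt 3 * P * ε) •
          ∑ k : Fin σ.len, (r k * bump (s - (k + 1))) • ctrlDir (σ.letter k)))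
        (fun k => q i l k) := by
      refine ((continuousAt_const.div hc.matrix_det.continuousAt ?_).rpow_const (Or.inl ?_)).smul
        hc.continuousAt
      · exact hne
      · exact div_ne_zero hB hne
    exact hA.tendsto.comp (tendsto_pi_nhds.2 fun k => h i l k)
  · have hn : ∀ il, ¬ InStage d t il := fun il hil => ht ⟨il, hil⟩
    simp only [(pathQ_outside hd _ hn).2]
    exact tendsto_const_nhds

theorem tendsto_truncOp (hd : d.Good r₂ β φ₀) {p : ℕ → Param} {q : Param} (hq : InBox d q)
    (h : ∀ i l k, Tendsto (fun m => p m i l k) atTop (𝓝 (q i l k))) (K : ℕ) (t : ℝ)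
    (x z : PntK K) :
    Tendsto (fun m => truncOp d (p m) K t x z) atTop (𝓝 (truncOp d q K t x z)) :=
  (((continuous_linkMat (pathGauge d t)).matrix_elem x z).tendsto _).comp
    (tendsto_pathQ hd hq h t)

theorem exists_segment (hd : d.Good r₂ β φ₀) {t : ℝ} (ht : clusterStart d 0 ≤ t) :
    ∃ i l, l < (d.plan (d.j₀ + i)).length ∧ t ∈ Icc (segStart d i l) (segEnd d i l) := by
  classical
  have hn : ∀ n : ℕ, (n : ℝ) ≤ clusterStart d n := by
    intro n
    induction n with
    | zero => rw [Nat.cast_zero]; exact le_trans (by positivity) (Trunc.clusterStart_ge hd 0)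
    | succ n ih =>
      have := Sched.stage_le_clusterStart_succ hd.j₀_pos n 0
      rw [Trunc.stageStart_zero] at this
      push_cast
      linarith
  obtain ⟨n, hlt⟩ := exists_nat_gt t
  have hex : ∃ n, t < clusterStart d n := ⟨n, hlt.trans_le (hn n)⟩
  obtain ⟨i, hi⟩ : ∃ i, Nat.find hex = i + 1 := Nat.exists_eq_succ_of_ne_zero fun h0 => by
    have := Nat.find_spec hex
    rw [h0] at this
    linarith
  have hi1 : t < clusterStart d (i + 1) := hi ▸ Nat.find_spec hex
  have hi0 : clusterStart d i ≤ t := not_lt.1 (Nat.find_min hex (by omega))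
  have hlen : 0 < (d.plan (d.j₀ + i)).length := List.length_pos_iff.2 (hd.isPlan.nonempty _)
  set l := Nat.findGreatest (fun l => stageStart d i l ≤ t) ((d.plan (d.j₀ + i)).length - 1)
    with hl
  have hP : stageStart d i l ≤ t :=
    Nat.findGreatest_spec (P := fun l => stageStart d i l ≤ t) (Nat.zero_le _)
      (by rw [Trunc.stageStart_zero]; exact hi0)
  have hle : l ≤ (d.plan (d.j₀ + i)).length - 1 := Nat.findGreatest_le _
  refine ⟨i, l, by omega, hP, ?_⟩
  unfold segEnd
  split_ifs with h
  · exact (not_le.1 (Nat.findGreatest_is_greatest (P := fun l => stageStart d i l ≤ t)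
      (show l < l + 1 by omega) (by omega))).le
  · exact hi1.le

open scoped MatrixOrder in
theorem norm_le_of_psd {n : Type*} [Fintype n] [DecidableEq n] {A B : Op n} (hA : A.PosSemidef)
    (hB : (B - A).PosSemidef) : ‖A‖ ≤ ‖B‖ :=
  CStarAlgebra.norm_le_norm_of_nonneg_of_le hA.nonneg hB

/-- The operators are bounded by the control-free one, uniformly in the parameters. -/
theorem exists_norm_truncOp_le (period : ℕ) (plan : ℕ → List StagePlan) (box : ℝ) :
    ∃ j₁ : ℕ, ∀ (d : PathData) (r₂ β φ₀ : ℝ), d.period = period → d.plan = plan → d.box = box →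
      j₁ ≤ d.j₀ → d.Good r₂ β φ₀ → ∀ (K : ℕ) (a b : ℝ), ∃ M : ℝ, ∀ p : Param, InBox d p →
        ∀ t ∈ Icc a b, ∀ x z : PntK K, ‖truncOp d p K t x z‖ ≤ M := by
  obtain ⟨K₁, hK₁, hseg⟩ := Trunc.seg_op period plan box
  obtain ⟨j₁, hj⟩ := Trunc.exists_speed_le (1 / (2 * K₁)) (by positivity)
  refine ⟨j₁, fun d r₂ β φ₀ e1 e2 e3 hj₀ hd K a b => ?_⟩
  have hc : Continuous (Trunc.baseDiag d K) :=
    Trunc.continuous_rdiag fun x => (baseCoef_contDiff hd (lab x.out)).continuous
  obtain ⟨M, hM⟩ := (isCompact_Icc (a := a) (b := b)).exists_bound_of_continuousOn hc.continuousOn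
  refine ⟨2 * M, fun p hp t ht x z => (norm_apply_le _ x z).trans ?_⟩
  have hBM := hM t ht
  have hM0 : 0 ≤ M := (norm_nonneg _).trans hBM
  rcases le_total t (clusterStart d 0) with h0 | h0
  · rw [show truncOp d p K t = Trunc.baseDiag d K t from (Trunc.pathMat_pre hd p h0).1]
    linarith
  · obtain ⟨i, l, hl, hm⟩ := exists_segment hd h0
    have hk : K₁ * speed (d.j₀ + i) ≤ 1 / 2 := by
      have := hj (d.j₀ + i) (Trunc.one_le_idx hd i) (hj₀.trans (Nat.le_add_right _ _))
      rw [le_div_iff₀ (by positivity)] at this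
      linarith
    obtain ⟨h1, -, -⟩ := hseg d r₂ β φ₀ e1 e2 e3 hd p hp K i l hl hk t hm
    have hk0 : 0 < speed (d.j₀ + i) := Trunc.speed_pos (Trunc.one_le_idx hd i)
    refine (norm_le_of_psd ((truncOp_spec hd hp K).2 t) h1).trans ?_
    rw [norm_smul, Real.norm_eq_abs, abs_of_pos (by positivity)]
    exact mul_le_mul (by linarith) hBM (norm_nonneg _) (by norm_num)

end Vale.Agent.P225.Lim
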